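import Vale.Agent.P144Q.U.All

/-!
A boundary condition with finite limits; the spinor does not vanish at its only branch point.
-/

namespace Vale.Agent.P144X.P

open Filter Topology Complex Metric Set Vale.Agent.P144 Vale.Agent.P144Q
open Vale.Agent.P144G (Conf XX BdD Nr HD_comp ev_ring disc_zero cont_zero)
open Vale.Agent.P144.H170 (HD)
open Vale.Agent.P144.H365 (cH)
open scoped ComplexConjugate

/-- The normal derivative has finite nonnegative limits at the circle. -/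
def BdL (φ F : ℂ → ℂ) : Prop := ∀ ξ : ℂ, ‖ξ‖ = 1 →
  ∃ c : ℝ, 0 ≤ c ∧ Tendsto (XX φ F) (𝓝[ball 0 1] ξ) (𝓝 (c : ℂ))

variable {φ : ℂ → ℂ} {D : Set ℂ}

theorem BdL.bdD {F : ℂ → ℂ} (h : BdL φ F) : BdD φ F := by
  intro ξ hξ
  obtain ⟨c, hc, hl⟩ := h ξ hξ
  have := hl.norm.sub (continuous_re.continuousAt.tendsto.comp hl)
  rwa [norm_real, Real.norm_of_nonneg hc, ofReal_re, sub_self] at this

theorem bdL_of (hφ : Conf φ D) {h : ℂ → ℝ} {F : ℂ → ℂ}
    (hd : ∃ K, IsCompact K ∧ K ⊆ D ∧ ∀ z ∈ D, z ∉ K →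
      DifferentiableAt ℂ F z ∧ HD h (fun y => cH * F y) z)
    (h0 : ∀ ε > (0 : ℝ), ∃ K, IsCompact K ∧ K ⊆ D ∧ ∀ z ∈ D, z ∉ K → |h z| ≤ ε)
    (hs : ∀ ξ : ℂ, ‖ξ‖ = 1 → ∀ η > (0 : ℝ), ∃ w : ℂ, ‖w‖ < 1 ∧ ‖w - ξ‖ < η ∧ 0 ≤ h (φ w)) :
    BdL φ F := by
  intro ξ hξ
  have hN : Nr (fun w => h (φ w)) (fun w => cH * F (φ w) * deriv φ w) := by
    constructor
    · obtain ⟨K, k1, k2, k3⟩ := hd
      obtain ⟨r, hr, hK⟩ := hφ.away k1 k2
      refine ⟨r, hr, fun w a1 a2 => ?_⟩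
      have hw := mem_ball_zero_iff.2 a2
      obtain ⟨b1, b2⟩ := k3 _ (hφ.mem hw) (hK w a1 a2)
      have b3 := (hφ.strict hw).hasDerivAt
      exact ⟨((b1.comp w b3.differentiableAt).const_mul _).mul
        ((hφ.diff.deriv isOpen_ball).differentiableAt (isOpen_ball.mem_nhds hw)),
        HD_comp (G := fun y => cH * F y) (φ' := deriv φ) b2 b3⟩
    · intro ε hε
      obtain ⟨K, k1, k2, k3⟩ := h0 ε hε
      obtain ⟨r, hr, hK⟩ := hφ.away k1 k2
      exact ⟨r, hr, fun w a1 a2 => k3 _ (hφ.mem (mem_ball_zero_iff.2 a2)) (hK w a1 a2)⟩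
  exact hN.lim hξ (hs ξ hξ)

/-- The boundary condition from the `H`-function. -/
theorem bdl (c : Cm D) (hb : Bornology.IsBounded D) (huc : UniformContinuousOn c.φ D)
    {K : Set ℂ} {h : ℂ → ℝ} {F : ℂ → ℂ} (hK : IsCompact K) (hKD : K ⊆ D)
    (hF : DifferentiableOn ℂ F (D \ K)) (hd : ∀ z ∈ D \ K, HD h (fun w => cH * F w) z)
    (hv : Van D h) (hs : Sgn D h) : BdL c.ψ F := by
  refine bdL_of (R.conf c) ⟨K, hK, hKD, fun z hz hzK =>
    ⟨hF.differentiableAt ((c.op.sdiff hK.isClosed).mem_nhds ⟨hz, hzK⟩), hd z ⟨hz, hzK⟩⟩⟩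
    (fun ε hε => ?_) fun ξ hξ η hη => ?_
  · obtain ⟨η, hη, hv⟩ := hv ε hε
    have hs : {z | η ≤ infDist z Dᶜ} ⊆ D := fun z hz => by
      by_contra hD
      have h1 : η ≤ infDist z Dᶜ := hz
      rw [infDist_zero_of_mem (show z ∈ Dᶜ from hD)] at h1
      linarith
    exact ⟨_, isCompact_of_isClosed_isBounded
      (isClosed_le continuous_const (continuous_infDist_pt _)) (hb.subset hs), hs,
      fun z hz hzK => hv z hz (not_le.1 hzK)⟩
  · obtain ⟨δ, hδ, hu⟩ := Metric.uniformContinuousOn_iff.1 huc _ (half_pos hη)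
    obtain ⟨p, hp, hw⟩ := R.exists_bd c hb hξ
    obtain ⟨z, hz, h1, h2⟩ := hs p hp _ (half_pos hδ)
    obtain ⟨w, a1, a2, a3⟩ := hw _ (lt_min (half_pos hη) (half_pos hδ))
    have a4 := hu z hz _ (c.ψm a1) (by
      rw [dist_eq_norm]
      linarith [norm_sub_le_norm_sub_add_norm_sub z p (c.ψ w), norm_sub_rev p (c.ψ w),
        min_le_right (η / 2) (δ / 2)])
    rw [c.ri w a1, dist_eq_norm] at a4
    refine ⟨c.φ z, mem_ball_zero_iff.1 (c.φm hz), ?_, by rwa [c.li z hz]⟩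
    linarith [norm_sub_le_norm_sub_add_norm_sub (c.φ z) w ξ, min_le_left (η / 2) (δ / 2)]

theorem BdL.smul (hφ : Conf φ D) {F F' : ℂ → ℂ} {t : ℝ} {T : Set ℂ} (ht : 0 ≤ t) (hT : T.Finite)
    (hTD : T ⊆ D) (he : ∀ z ∈ D, z ∉ T → F' z = t * F z) (h : BdL φ F) : BdL φ F' := by
  intro ξ hξ
  obtain ⟨r, hr, hK⟩ := hφ.away hT.isCompact hTD
  obtain ⟨c, hc, hl⟩ := h ξ hξ
  refine ⟨t * c, mul_nonneg ht hc, ?_⟩
  rw [ofReal_mul]
  refine (hl.const_mul (t : ℂ)).congr' ?_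
  filter_upwards [ev_ring hr hξ] with w hw
  unfold P144G.XX
  rw [he _ (hφ.mem (mem_ball_zero_iff.2 hw.2)) (hK w hw.1 hw.2)]
  ring

theorem BdL.zero : BdL φ fun _ => 0 := fun _ _ => ⟨0, le_rfl, by
  have e : XX φ (fun _ => 0) = fun _ => ((0 : ℝ) : ℂ) := by
    funext w
    simp [P144G.XX]
  rw [e]
  exact tendsto_const_nhds⟩

/-- The abstract data with the stronger boundary condition. -/
theorem domL (hD : L.Lip3 D) (hs : IsSimplyConnected D) (hsm : D ⊆ ball 0 (1 / 4)) :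
    ∃ (Ω : Dom) (φ : ℂ → ℂ), Ω.D = D ∧ Conf φ D ∧ ∀ F, Ω.Bd F → BdL φ F := by
  obtain ⟨c, hc⟩ := R.map3 hD hs
  refine ⟨⟨D, BdL c.ψ, c.op, hsm, U.conn c,
    fun _ _ _ _ ht hT hTD he h => h.smul (R.conf c) ht hT hTD he, BdL.zero,
    fun _ _ _ _ _ _ _ _ _ _ hζ hω hinj hT hTD hTM hq he hc1 hc2 b1 b2 r1 r2 hs =>
      cont_zero (R.conf c) hζ hω hinj hT hTD hTM hq he hc1 hc2 b1.bdD b2.bdD r1 r2 hs,
    fun h => (V.van D c.op hsm (L.fat3 hD) h).1, fun h F h1 h2 => ?_⟩, c.ψ, rfl, R.conf c,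
    fun _ h => h⟩
  have h3 := V.van D c.op hsm (L.fat3 hD) h
  exact bdl c hD.2.1 hc h.cpt h.sub h1 h2 h3.1 h3.2

theorem bl_ne {p w : ℂ} (hp : ‖p‖ < 1) (hw : ‖w‖ ≤ 1) : 1 - conj p * w ≠ 0 := by
  intro h
  have h1 := congrArg norm (sub_eq_zero.1 h)
  rw [norm_one, norm_mul, norm_conj] at h1
  nlinarith [norm_nonneg p, norm_nonneg w]

theorem bl_circ {ξ : ℂ} (hξ : ‖ξ‖ = 1) (p : ℂ) :
    (ξ - p) * (1 - conj p * ξ) = ξ * (normSq (ξ - p) : ℝ) := by
  have h1 : ξ * conj ξ = 1 := by rw [mul_conj, normSq_eq_norm_sq, hξ]; simp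
  rw [← mul_conj, map_sub]
  linear_combination (-(ξ - p)) * h1

/-- If the spinor vanishes at the branch point then it vanishes at the source. -/
theorem q_zero (hφ : Conf φ D) {ζ ω : ℂ} (hζ : ζ ∈ D) (hω : ω ∈ D) {q F : ℂ → ℂ}
    (hq : DifferentiableOn ℂ q D) (hF : ∀ z, F z = q z ^ 2 / ((z - ζ) * (z - ω)))
    (hb : BdL φ F) (h0 : q ζ = 0) : q ω = 0 := by
  obtain ⟨u, hu, rfl⟩ := hφ.img.symm ▸ hζ
  obtain ⟨v, hv, rfl⟩ := hφ.img.symm ▸ hω
  have hu1 := mem_ball_zero_iff.1 hu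
  have hv1 := mem_ball_zero_iff.1 hv
  have hsl : ∀ w p : ℂ, φ w - φ p = (w - p) * dslope φ p w := fun w p => by
    rw [← smul_eq_mul, sub_smul_dslope]
  have hs0 : ∀ p ∈ ball (0 : ℂ) 1, ∀ w ∈ ball (0 : ℂ) 1, dslope φ p w ≠ 0 := by
    intro p hp w hw h
    by_cases e : w = p
    · rw [e, dslope_same] at h; exact hφ.ne p hp h
    · have := hsl w p
      rw [h, mul_zero, sub_eq_zero] at this
      exact e (hφ.inj hw hp this)
  have hsd : ∀ p ∈ ball (0 : ℂ) 1, DifferentiableOn ℂ (dslope φ p) (ball 0 1) := fun p hp =>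
    (differentiableOn_dslope (isOpen_ball.mem_nhds hp)).2 hφ.diff
  set s : ℂ → ℂ := dslope (fun w => q (φ w)) u with hs
  have hqs : ∀ w, q (φ w) = (w - u) * s w := fun w => by
    rw [hs, ← smul_eq_mul, sub_smul_dslope, h0, sub_zero]
  have hs1 : DifferentiableOn ℂ s (ball 0 1) :=
    (differentiableOn_dslope (isOpen_ball.mem_nhds hu)).2 (hq.comp hφ.diff fun w hw => hφ.mem hw)
  set Q : ℂ → ℂ := fun w => cH * s w ^ 2 * deriv φ w * (1 - conj v * w) /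
    (dslope φ u w * dslope φ v w * (1 - conj u * w)) with hQ
  have hQd : DifferentiableOn ℂ Q (ball 0 1) :=
    ((((hs1.pow 2).const_mul _).mul (hφ.diff.deriv isOpen_ball)).mul (by fun_prop)).div
      (((hsd u hu).mul (hsd v hv)).mul (by fun_prop)) fun w hw =>
        mul_ne_zero (mul_ne_zero (hs0 u hu w hw) (hs0 v hv w hw))
          (bl_ne hu1 (mem_ball_zero_iff.1 hw).le)
  have hcH : cH ≠ 0 := fun h => by
    have := congrArg re h
    simp [cH] at this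
  have hz := disc_zero hQd (P := ∅) (fun p hp => absurd hp (Finset.notMem_empty p))
    (fun p hp => absurd hp (Finset.notMem_empty p)) (fun ξ hξ => ?_) hv
  · simp only [hQ, div_eq_zero_iff, mul_eq_zero, hcH, hφ.ne v hv, false_or, or_false,
      hs0 u hu v hv, hs0 v hv v hv, bl_ne hu1 hv1.le, bl_ne hv1 hv1.le] at hz
    rw [hqs, pow_eq_zero_iff two_ne_zero |>.1 hz, mul_zero]
  · obtain ⟨c, hc, hl⟩ := hb ξ hξ
    have hξ0 : ξ ≠ 0 := norm_pos_iff.1 (by rw [hξ]; exact one_pos)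
    have hξu : ξ - u ≠ 0 := sub_ne_zero.2 fun h => by rw [← h, hξ] at hu1; exact lt_irrefl _ hu1
    set M : ℂ → ℂ := fun w => (w - v) * (1 - conj v * w) / ((w - u) * (1 - conj u * w)) with hM
    have hMc : ContinuousAt M ξ :=
      ContinuousAt.div (by fun_prop) (by fun_prop) (mul_ne_zero hξu (bl_ne hu1 hξ.le))
    have hMξ : M ξ = (normSq (ξ - v) / normSq (ξ - u) : ℝ) := by
      simp only [hM]
      rw [bl_circ hξ, bl_circ hξ, mul_div_mul_left _ _ hξ0, ofReal_div]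
    have h1 := (hl.mul (hMc.tendsto.mono_left nhdsWithin_le_nhds)).neg
    rw [hMξ, ← ofReal_mul, ← ofReal_neg] at h1
    have h2 := h1.norm.add (continuous_re.continuousAt.tendsto.comp h1)
    rw [norm_real, ofReal_re, norm_neg, Real.norm_of_nonneg
      (mul_nonneg hc (div_nonneg (normSq_nonneg _) (normSq_nonneg _))), add_neg_cancel] at h2
    refine h2.congr' ?_
    filter_upwards [ev_ring (max_lt hu1 hv1) hξ] with w hw
    have hw1 := mem_ball_zero_iff.2 hw.2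
    have a1 : w - u ≠ 0 := sub_ne_zero.2 fun h => by
      have := (le_max_left _ _).trans_lt hw.1
      rw [h] at this
      exact lt_irrefl _ this
    have a2 : w - v ≠ 0 := sub_ne_zero.2 fun h => by
      have := (le_max_right _ _).trans_lt hw.1
      rw [h] at this
      exact lt_irrefl _ this
    have a3 := hs0 u hu w hw1
    have a4 := hs0 v hv w hw1
    have a5 := bl_ne hu1 hw.2.le
    have e : -(XX φ F w * M w) = w * (Q w / ∏ p ∈ (∅ : Finset ℂ), (w - p)) := by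
      unfold P144G.XX
      rw [hF, hqs, hsl w u, hsl w v, Finset.prod_empty, div_one]
      simp only [hM, hQ]
      field_simp
    simp only [Function.comp, e]

end Vale.Agent.P144X.P
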