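import Vale.Agent.P144X.Pos.Bd
import Vale.Agent.P144.H436.Norm4

/-!
The limits of the free spin correlations are positive.
-/

namespace Vale.Agent.P144X.P

open Finset Filter Topology Vale.Agent.P144 Vale.Agent.P144Q
open Vale.Agent.P144G (Conf)

/-- Two spins. -/
abbrev pr (z w : ℂ) : Pts := ⟨2, 0, ![z, w], Fin.elim0, Fin.elim0⟩

theorem pr_good {D : Set ℂ} {z w : ℂ} (hz : z ∈ D) (hw : w ∈ D) (h : z ≠ w) : Good D (pr z w) := by
  refine ⟨by simp, Fin.forall_fin_two.2 ⟨hz, hw⟩, fun k => k.elim0, ?_⟩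
  rintro (i | i) (j | j) e
  · fin_cases i <;> fin_cases j
    exacts [rfl, absurd e h, absurd e.symm h, rfl]
  exacts [j.elim0, i.elim0, i.elim0]

theorem Pf_two {α : Type} (K : α → α → ℝ) (x y : α) : AL.Pf K [x, y] = K x y := by
  rw [AL.Pf]
  simp [AL.Pf]

variable {J : ℝ} (hJ : 0 < J) {Ω : Dom} {φ : ℂ → ℂ} {Λ : ℝ → Finset Site}

include hJ

theorem corr_two (hΛ : Fam0 Ω.D Λ) {z w : ℂ} (hp : Good Ω.D (pr z w)) :
    ∀ᶠ a in 𝓝[>] (0 : ℝ), |corr a (fre J Λ a) (pr z w)| =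
      Gn Λ (univ.image (pr z w).x) a * |Kn Λ (pr z w) a (.src (0 : Fin 2)) (.src (1 : Fin 2))| := by
  have hx : Function.Injective (pr z w).x := fun i i' h =>
    Sum.inl_injective (hp.2.2.2 (by simpa using h))
  filter_upwards [AL.sep_ev (pr z w) ⟨fun i => Ω.dia (hp.2.1 i), fun k => k.elim0, hp.2.2.2⟩,
    E.ins_ev hΛ hp.2, self_mem_nhdsWithin] with a h1 h2 h3
  have ha : 0 < a := h3
  have e1 : (univ : Finset (Fin (pr z w).m)).toList = [] :=
    List.eq_nil_iff_forall_not_mem.2 fun k => k.elim0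
  have e2 : AL.lbs (n := (pr z w).n) ([] : List (Fin (pr z w).m)) [] =
      [.src (0 : Fin 2), .src (1 : Fin 2)] := rfl
  have e3 : E.Kz Λ (pr z w) [] a (.src (0 : Fin 2)) (.src (1 : Fin 2)) =
      Kn Λ (pr z w) a (.src (0 : Fin 2)) (.src (1 : Fin 2)) := by
    rw [E.cen_other Λ (pr z w) [] a fun k => k.elim0]
    show (1 : ℝ) * 1 * _ = _
    rw [one_mul, one_mul]
    rfl
  have e4 : |AL.SG [] (AL.srcs fun i => fl a ((pr z w).x i))| = 1 := by
    rcases mul_self_eq_one_iff.1 (AL.SG_sq [] (AL.srcs fun i => fl a ((pr z w).x i))) with h | h <;>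
      rw [h] <;> simp
  have e5 : 0 < Gn Λ (univ.image (pr z w).x) a :=
    mul_pos (Real.rpow_pos_of_pos ha _) (H436.MM_pos _ _)
  rw [E.corr_eq Λ (pr z w) hJ h1 h2, ← E.Gn_eq Λ (pr z w) hx ha, e1, e2, Pf_two, e3, abs_mul,
    abs_mul, abs_mul, e4, abs_of_pos e5]
  simp

/-- The limit for two spins does not vanish. -/
theorem two_ne (hφ : Conf φ Ω.D) (hb : ∀ F, Ω.Bd F → BdL φ F) (hΛ : Fam0 Ω.D Λ)
    (hn : NormE Ω.D Λ) {z w : ℂ} (hp : Good Ω.D (pr z w)) : ¬ Lim (fre J Λ) (pr z w) 0 := by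
  intro h0
  have hx : Function.Injective (pr z w).x := fun i i' h =>
    Sum.inl_injective (hp.2.2.2 (by simpa using h))
  have h01 : (0 : Fin 2) ≠ 1 := by decide
  set l : Ultrafilter ℝ := Ultrafilter.of (𝓝[>] 0) with hl'
  have hl : (l : Filter ℝ) ≤ 𝓝[>] 0 := Ultrafilter.of_le _
  obtain ⟨q, hq⟩ := G.pkj_exists (p := pr z w) (1 : Fin 2) (A.xj Ω) hΛ hp.2 l hl
  have e1 : ∀ f : ℂ → ℂ, ∏ i : {i : Fin (pr z w).n // i ≠ (1 : Fin 2)}, f ((pr z w).x i) = f z :=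
    fun f => Finset.prod_eq_single_of_mem
      (f := fun i : {i : Fin (pr z w).n // i ≠ (1 : Fin 2)} => f ((pr z w).x i))
      ⟨(0 : Fin 2), h01⟩ (mem_univ _) fun b _ hb' => by
      obtain ⟨b, h⟩ := b
      fin_cases b
      exacts [absurd rfl hb', absurd rfl h]
  have hzw : z ≠ w := fun h => h01 (hx h)
  have hqz : q z ≠ 0 := fun h => by
    have h1 := q_zero hφ (hp.2.1 (0 : Fin 2)) (hp.2.1 (1 : Fin 2)) hq.sol.diff (fun y => by
      unfold H170.F2 H170.PP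
      rw [e1 fun t => y - t, H170.unit_prod']
      rfl) (hb _ hq.sol.bd) h
    have h2 := hq.sol.src
    rw [h1, e1 fun t => (pr z w).x (1 : Fin 2) - t] at h2
    exact hzw (sub_eq_zero.1 (by simpa using h2.symm)).symm
  have t1 := (G.rho_i_lim hl hΛ hp.2 h01 hq).norm
  obtain ⟨c, -, t2⟩ := AL.rho_src (pr z w) hx (0 : Fin 2)
  obtain ⟨g, hg, t3⟩ := hn (univ.image (pr z w).x) (fun y hy => by
    obtain ⟨i, -, rfl⟩ := mem_image.1 hy
    exact hp.2.1 i) (by rw [AL.card_im _ hx]; exact even_two)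
  have t4 := ((Tendsto.abs h0).mul t2).mono_left hl
  rw [abs_zero, zero_mul] at t4
  have t5 := tendsto_nhds_unique_of_eventuallyEq t4 ((t3.mono_left hl).mul t1) (by
    filter_upwards [hl (corr_two hJ hΛ hp)] with a ha
    have ha' : |corr a (fre J Λ a) (pr z w)| = _ := ha
    rw [ha', mul_div_right_comm, norm_mul, Complex.norm_real, Real.norm_eq_abs]
    ring)
  refine (mul_pos hg (norm_pos_iff.2 ?_)).ne t5
  refine mul_ne_zero (H170.rtu_ne AL.z0_ne) (mul_ne_zero (by simp) (mul_ne_zero ?_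
    (mul_ne_zero H365.c0_ne (mul_ne_zero Complex.I_ne_zero hqz))))
  exact Complex.ofReal_ne_zero.2 (by positivity)

omit hJ in
theorem inj_ev (X : Finset ℂ) : ∀ᶠ a in 𝓝[>] (0 : ℝ), Set.InjOn (fl a) X := by
  have : ∀ z ∈ X, ∀ w ∈ X, ∀ᶠ a in 𝓝[>] (0 : ℝ), fl a z = fl a w → z = w := by
    intro z _ w _
    by_cases h : z = w
    · exact Eventually.of_forall fun _ _ => h
    · exact (AL.ne_ev (AL.flt z) (AL.flt w) h).mono fun a ha e => absurd e ha
  filter_upwards [(eventually_all_finset X).2 fun z hz => (eventually_all_finset X).2 (this z hz)]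
    with a ha z hz w hw e
  exact ha z hz w hw e

/-- The rescaled free correlation. -/
noncomputable def FX (J : ℝ) (Λ : ℝ → Finset Site) (X : Finset ℂ) (a : ℝ) : ℝ :=
  (a ^ (-(1 / 8) : ℝ)) ^ X.card * fcor J (Λ a) (X.image (fl a))

omit hJ in
theorem corr_FX (Λ : ℝ → Finset Site) {p : Pts} (hx : Function.Injective p.x) (hm : p.m = 0) :
    ∀ᶠ a in 𝓝[>] (0 : ℝ), corr a (fre J Λ a) p = FX J Λ (univ.image p.x) a := by
  filter_upwards [inj_ev (univ.image p.x)] with a ha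
  have : IsEmpty (Fin p.m) := ⟨fun k => by have := k.2; omega⟩
  unfold corr FX fcor fre
  rw [← B.gibbs_cmul, AL.card_im p hx]
  refine congrArg _ (funext fun σ => ?_)
  rw [prod_image ha, prod_image hx.injOn, Finset.univ_eq_empty (α := Fin p.m), prod_empty,
    mul_one, prod_mul_distrib, prod_const, card_univ, Fintype.card_fin]

theorem FX_nonneg (Λ : ℝ → Finset Site) (X : Finset ℂ) {a : ℝ} (ha : 0 < a) : 0 ≤ FX J Λ X a := by
  refine mul_nonneg (by positivity) ?_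
  rw [H436.fcor_eq]
  exact H436.cor_nonneg (div_pos H436.kc_pos hJ).le hJ.le le_rfl _ _

theorem FX_union (Λ : ℝ → Finset Site) {X Y : Finset ℂ} (hd : Disjoint X Y) :
    ∀ᶠ a in 𝓝[>] (0 : ℝ), FX J Λ X a * FX J Λ Y a ≤ FX J Λ (X ∪ Y) a := by
  filter_upwards [inj_ev (X ∪ Y), self_mem_nhdsWithin] with a h1 ha
  have ha : 0 < a := ha
  have h2 : Disjoint (X.image (fl a)) (Y.image (fl a)) := by
    rw [Finset.disjoint_left]
    intro v hv hv'
    obtain ⟨z, hz, rfl⟩ := mem_image.1 hv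
    obtain ⟨w, hw, e⟩ := mem_image.1 hv'
    have := h1 (mem_coe.2 (mem_union_right _ hw)) (mem_coe.2 (mem_union_left _ hz)) e
    exact Finset.disjoint_left.1 hd hz (this ▸ hw)
  unfold FX
  rw [card_union_of_disjoint hd, pow_add, image_union, mul_mul_mul_comm]
  exact mul_le_mul_of_nonneg_left (H436.cor_gks_union hJ h2) (by positivity)

/-- A lower bound for every even number of spins. -/
theorem FX_low {D : Set ℂ} (h2 : ∀ z ∈ D, ∀ w ∈ D, z ≠ w → ∃ g > 0,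
    ∀ᶠ a in 𝓝[>] (0 : ℝ), g ≤ FX J Λ {z, w} a) (k : ℕ) : ∀ X : Finset ℂ, (∀ z ∈ X, z ∈ D) →
      X.card = 2 * k + 2 → ∃ g > 0, ∀ᶠ a in 𝓝[>] (0 : ℝ), g ≤ FX J Λ X a := by
  induction k with
  | zero =>
    intro X hX hc
    obtain ⟨z, w, h, rfl⟩ := card_eq_two.1 hc
    exact h2 z (hX z (by simp)) w (hX w (by simp)) h
  | succ k ih =>
    intro X hX hc
    obtain ⟨Y, hY, hc'⟩ := exists_subset_card_eq (show 2 ≤ X.card by omega)
    obtain ⟨g, g0, hg⟩ := ih (X \ Y) (fun z hz => hX z (mem_sdiff.1 hz).1)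
      (by rw [card_sdiff_of_subset hY]; omega)
    obtain ⟨z, w, h, e⟩ := card_eq_two.1 hc'
    obtain ⟨g', g0', hg'⟩ := h2 z (hX z (hY (by simp [e]))) w (hX w (hY (by simp [e]))) h
    rw [← e] at hg'
    refine ⟨g * g', mul_pos g0 g0', ?_⟩
    filter_upwards [hg, hg', FX_union hJ Λ (sdiff_disjoint (s := Y) (t := X))] with a a1 a2 a3
    rw [sdiff_union_of_subset hY] at a3
    exact (mul_le_mul a1 a2 g0'.le (g0.le.trans a1)).trans a3

/-- Positivity in a small domain. -/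
theorem pos_small (hφ : Conf φ Ω.D) (hb : ∀ F, Ω.Bd F → BdL φ F) (hΛ : Fam0 Ω.D Λ)
    (hn : NormE Ω.D Λ) (hA : AllLim Ω.D (fre J Λ)) {p : Pts} (hp : Good Ω.D p) (hm : p.m = 0)
    (he : Even p.n) {c : ℝ} (hc : Lim (fre J Λ) p c) : 0 < c := by
  have hx : Function.Injective p.x := fun i i' h =>
    Sum.inl_injective (hp.2.2.2 (by simpa using h))
  obtain ⟨k, hk⟩ : ∃ k, p.n = 2 * k + 2 := by
    obtain ⟨k, hk⟩ := he
    have := hp.1
    exact ⟨k - 1, by omega⟩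
  obtain ⟨g, g0, hg⟩ := FX_low hJ (Λ := Λ) (D := Ω.D) (fun z hz w hw h => by
    have hp := pr_good hz hw h
    have hx : Function.Injective (pr z w).x := fun i i' h =>
      Sum.inl_injective (hp.2.2.2 (by simpa using h))
    obtain ⟨c, hc⟩ := hA _ hp
    have e : univ.image (pr z w).x = {z, w} := by
      ext y
      simp [Fin.exists_fin_two, eq_comm]
    have h1 : Tendsto (FX J Λ {z, w}) (𝓝[>] 0) (𝓝 c) := e ▸ Tendsto.congr' (corr_FX Λ hx rfl) hc
    have h2 : 0 ≤ c := ge_of_tendsto h1 (eventually_mem_nhdsWithin.mono fun a ha =>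
      FX_nonneg hJ Λ _ ha)
    have h3 : 0 < c := lt_of_le_of_ne h2 fun h => two_ne hJ hφ hb hΛ hn hp (h ▸ hc)
    exact ⟨c / 2, half_pos h3, (h1.eventually_const_lt (half_lt_self h3)).mono fun a ha => ha.le⟩)
    k (univ.image p.x) (fun y hy => by
      obtain ⟨i, -, rfl⟩ := mem_image.1 hy
      exact hp.2.1 i) (by rw [AL.card_im _ hx, hk])
  exact g0.trans_le (ge_of_tendsto (Tendsto.congr' (corr_FX Λ hx hm) hc) hg)

/-- **Positivity for the free boundary condition.** -/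
theorem pos_free {D : Set ℂ} (h : L.Lip3 D) (hs : IsSimplyConnected D) {p : Pts} (hp : Good D p)
    (hm : p.m = 0) (he : Even p.n) {c : ℝ} (hc : Lim (crit J D none) p c) : 0 < c := by
  obtain ⟨t, R0, hsm⟩ := U.exists_small h.2.1
  have h' := U.lip3_div R0 h
  have hs' := U.sc_div R0 hs
  have hp' := B.good_shr R0 hp
  obtain ⟨c', hc'⟩ := U.all3 hJ h' hs' _ hp'
  rw [tendsto_nhds_unique hc (B.lim_div R0 hc')]
  refine mul_pos (by positivity) ?_
  generalize (fun z => z / (t : ℂ)) '' D = D' at hsm h' hs' hp' hc'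
  obtain ⟨Ω, φ, rfl, hφ, hb⟩ := domL h' hs' hsm
  obtain ⟨Ω', hΩ'⟩ := U.dom3 (U.lip3_rc h') (U.sc_rc hs') (U.small_rc hsm)
  obtain ⟨c, -⟩ := R.map3 h' hs'
  have hF := L.lat3 h' c
  exact pos_small hJ hφ hb hF (E.norm _ _ Ω.op Ω.small hF (B.ratio A.xj Ω Ω' hΩ' _ hF))
    (U.all3 hJ h' hs') hp' hm he hc'

end Vale.Agent.P144X.P
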