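import Vale.Agent.P144M.Top
import Vale.Agent.P144D.Tame
import Mathlib.Analysis.InnerProductSpace.Calculus
import Mathlib.Analysis.Calculus.BumpFunction.InnerProduct
import Mathlib.Analysis.Calculus.BumpFunction.FiniteDimension
import Mathlib.Analysis.Convex.Contractible

/-!
Two points of a connected open set lie in a simply connected subdomain with smooth boundary.
-/

namespace Vale.Agent.P144X.P

open Filter Topology Metric Set Vale.Agent.P144Z

theorem c1_ball (z : ℂ) {r : ℝ} (hr : 0 < r) : IsC1 (ball z r) := by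
  refine ⟨isBounded_ball, fun x => r ^ 2 - ‖x - z‖ ^ 2,
    contDiff_const.sub ((contDiff_id.sub contDiff_const).norm_sq ℝ), ?_, fun x hx h => ?_⟩
  · ext x
    simp [mem_ball, dist_eq_norm, sq_lt_sq, abs_of_pos hr]
  · have h1 := (((hasFDerivAt_id (𝕜 := ℝ) x).sub_const z).norm_sq.const_sub (r ^ 2)).fderiv
    have h2 := congrArg (fun A : ℂ →L[ℝ] ℝ => A (x - z)) (h1.symm.trans h)
    simp only [id, neg_apply, smul_apply,
      ContinuousLinearMap.comp_apply, ContinuousLinearMap.id_apply, innerSL_apply_apply,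
      real_inner_self_eq_norm_sq, zero_apply, nsmul_eq_mul] at h2
    have h3 : r ^ 2 - ‖x - z‖ ^ 2 = 0 := hx
    have h4 : 0 < r ^ 2 := by positivity
    push_cast at h2
    linarith

theorem c1_open {U : Set ℂ} (h : IsC1 U) : IsOpen U := by
  obtain ⟨-, F, hF, rfl, -⟩ := h
  exact isOpen_lt continuous_const hF.continuous

/-- A small smooth perturbation of the identity. -/
theorem pull {k : ℂ → ℂ} (hk : ContDiff ℝ 1 k) (hl : LipschitzWith (1 / 2) k) {U : Set ℂ}
    (h1 : IsC1 U) (h2 : IsSimplyConnected U)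
    (hb : Bornology.IsBounded ((fun x => x + k x) ⁻¹' U)) :
    IsC1 ((fun x => x + k x) ⁻¹' U) ∧ IsSimplyConnected ((fun x => x + k x) ⁻¹' U) := by
  constructor
  · obtain ⟨-, F, hF, rfl, h0⟩ := h1
    refine ⟨hb, fun x => F (x + k x), hF.comp (contDiff_id.add hk), rfl, fun x hx h => ?_⟩
    have a1 := (hF.differentiable one_ne_zero (x + k x)).hasFDerivAt
    have a2 := (hk.differentiable one_ne_zero x).hasFDerivAt
    have a3 := (a1.comp x ((hasFDerivAt_id x).add a2)).fderiv.symm.trans h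
    have a4 : ‖fderiv ℝ k x‖ ≤ (1 / 2 : NNReal) := norm_fderiv_le_of_lipschitz ℝ hl
    rw [ContinuousLinearMap.comp_add, ContinuousLinearMap.comp_id, add_eq_zero_iff_eq_neg] at a3
    have a5 := congrArg norm a3
    rw [norm_neg] at a5
    have a6 := (fderiv ℝ F (x + k x)).opNorm_comp_le (fderiv ℝ k x)
    have a7 := norm_pos_iff.2 (h0 _ hx)
    push_cast at a4
    nlinarith
  · have ha : ApproximatesLinearOn (fun x => x + k x)
        ((ContinuousLinearEquiv.refl ℝ ℂ : ℂ ≃L[ℝ] ℂ) : ℂ →L[ℝ] ℂ) univ (1 / 2) := by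
      intro x _ y _
      have := hl.dist_le_mul x y
      rw [dist_eq_norm, dist_eq_norm] at this
      refine le_of_eq_of_le (congrArg norm ?_) this
      simp only [ContinuousLinearEquiv.coe_coe, ContinuousLinearEquiv.refl_apply]
      ring
    exact (Homeomorph.isSimplyConnected_preimage (ha.toHomeomorph _ (Or.inr (by
      simp
      norm_num)))).2 h2

theorem move {D : Set ℂ} (hb : Bornology.IsBounded D) {w : ℂ} {r : ℝ} (hr : 0 < r)
    (hD : ball w r ⊆ D) : ∃ ε > 0, ∀ w', ‖w' - w‖ < ε → ∀ U, IsC1 U → IsSimplyConnected U →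
      U ⊆ D → w' ∈ U → ∃ U', IsC1 U' ∧ IsSimplyConnected U' ∧ U' ⊆ D ∧ w ∈ U' ∧
        ∀ z ∈ U, z ∉ ball w r → z ∈ U' := by
  let φ : ContDiffBump w := ⟨r / 2, r, half_pos hr, half_lt_self hr⟩
  obtain ⟨C, hC⟩ := (φ.contDiff (n := 1)).lipschitzWith_of_hasCompactSupport φ.hasCompactSupport
    one_ne_zero
  have h0 : ∀ x, x ∉ ball w r → φ x = 0 := fun x hx => φ.zero_of_le_dist (not_lt.1 hx)
  refine ⟨1 / (2 * (C + 1)), by positivity, fun w' hw' U u1 u2 u3 u4 => ?_⟩
  have hs : (fun x => x + φ x • (w' - w)) ⁻¹' U ⊆ D := fun x hx => by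
    by_cases h : x ∈ ball w r
    · exact hD h
    · have hx' : x + φ x • (w' - w) ∈ U := hx
      rw [h0 x h, zero_smul, add_zero] at hx'
      exact u3 hx'
  obtain ⟨a1, a2⟩ := pull (k := fun x => φ x • (w' - w)) (φ.contDiff.smul contDiff_const)
    (LipschitzWith.of_dist_le_mul fun x y => by
      have b1 := hC.dist_le_mul x y
      rw [lt_div_iff₀ (by positivity)] at hw'
      rw [dist_eq_norm, ← sub_smul, norm_smul, ← dist_eq_norm]
      have b2 : (0 : ℝ) ≤ C := C.2
      have b3 := mul_le_mul_of_nonneg_right b1 (norm_nonneg (w' - w))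
      have b4 := dist_nonneg (x := x) (y := y)
      have b5 := norm_nonneg (w' - w)
      push_cast
      nlinarith) u1 u2 (hb.subset hs)
  refine ⟨_, a1, a2, hs, ?_, fun z hz h => ?_⟩
  · show w + φ w • (w' - w) ∈ U
    rwa [φ.one_of_mem_closedBall (mem_closedBall_self φ.rIn_pos.le), one_smul, add_sub_cancel]
  · show z + φ z • (w' - w) ∈ U
    rwa [h0 z h, zero_smul, add_zero]

/-- **The subdomain.** -/
theorem sub_c1 {D : Set ℂ} (ho : IsOpen D) (hb : Bornology.IsBounded D) (hc : IsPreconnected D)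
    {z w : ℂ} (hz : z ∈ D) (hw : w ∈ D) :
    ∃ U, IsC1 U ∧ IsSimplyConnected U ∧ U ⊆ D ∧ z ∈ U ∧ w ∈ U := by
  obtain ⟨r, hr, hD⟩ := Metric.isOpen_iff.1 ho z hz
  have b1 : IsSimplyConnected (ball z r) := by
    have := (convex_ball z r).contractibleSpace ⟨z, mem_ball_self hr⟩
    exact SimplyConnectedSpace.ofContractible _
  by_cases h : w = z
  · exact ⟨_, c1_ball z hr, b1, hD, mem_ball_self hr, h ▸ mem_ball_self hr⟩
  refine (P144M.pre_diff_fin ho hc (finite_singleton z)).subset_of_closure_inter_subset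
    (u := {w | ∃ U, IsC1 U ∧ IsSimplyConnected U ∧ U ⊆ D ∧ z ∈ U ∧ w ∈ U}) ?_ ?_ ?_ ⟨hw, h⟩
  · refine isOpen_iff_mem_nhds.2 fun x ⟨U, u1, u2, u3, u4, u5⟩ => ?_
    exact mem_of_superset ((c1_open u1).mem_nhds u5) fun y hy => ⟨U, u1, u2, u3, u4, hy⟩
  · have h1 : z + (r / 2 : ℝ) ∈ ball z r := by
      rw [mem_ball, dist_eq_norm, add_sub_cancel_left, Complex.norm_real,
        Real.norm_of_nonneg (half_pos hr).le]
      exact half_lt_self hr
    refine ⟨_, ⟨hD h1, fun h => ?_⟩, _, c1_ball z hr, b1, hD, mem_ball_self hr, h1⟩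
    exact (half_pos hr).ne' (Complex.ofReal_eq_zero.1 (add_eq_left.1 h))
  · rintro x ⟨h1, h2⟩
    obtain ⟨s, hs, hx⟩ := Metric.isOpen_iff.1 (ho.sdiff isClosed_singleton) x h2
    obtain ⟨ε, hε, hm⟩ := move hb hs (hx.trans sdiff_subset)
    obtain ⟨y, ⟨U, u1, u2, u3, u4, u5⟩, hy⟩ := Metric.mem_closure_iff.1 h1 ε hε
    obtain ⟨U', a1, a2, a3, a4, a5⟩ := hm y (by rwa [← dist_eq_norm, dist_comm]) U u1 u2 u3 u5
    exact ⟨U', a1, a2, a3, a5 z u4 fun h => (hx h).2 rfl, a4⟩

end Vale.Agent.P144X.P
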