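import Vale.Agent.P144X.Pos
import Vale.Agent.P144X.Pos.Sub

/-!
Positivity of the limits of the spin correlations in all bounded open sets.
-/

namespace Vale.Agent.P144X

open Finset Filter Topology Vale.Agent.P144 Vale.Agent.P144Z Vale.Agent.P144Q Vale.Agent.P144S

variable {J : ℝ} {D : Set ℂ}

theorem P.fl_mem (ho : IsOpen D) (hb : Bornology.IsBounded D) {X : Finset ℂ}
    (hX : ∀ z ∈ X, z ∈ D) : ∀ᶠ a in 𝓝[>] (0 : ℝ), ∀ z ∈ X, fl a z ∈ disc D a := by
  refine (eventually_all_finset X).2 fun z hz => ?_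
  filter_upwards [(AL.flt z).eventually (ho.mem_nhds (hX z hz)), self_mem_nhdsWithin] with a h ha
  exact (mem_disc hb ha _).2 h

theorem P.disc_mono (hb : Bornology.IsBounded D) {U : Set ℂ} (h : U ⊆ D) {a : ℝ} (ha : 0 < a) :
    disc U a ⊆ disc D a :=
  fun x hx => (mem_disc hb ha x).2 (h ((mem_disc (hb.subset h) ha x).1 hx))

theorem P.two_low (hJ : 0 < J) (ho : IsOpen D) (hb : Bornology.IsBounded D) {z w : ℂ}
    (hz : z ∈ D) (hw : w ∈ connectedComponentIn D z) (h : z ≠ w) :
    ∃ g > 0, ∀ᶠ a in 𝓝[>] (0 : ℝ), g ≤ P.FX J (disc D) {z, w} a := by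
  have hs := connectedComponentIn_subset D z
  obtain ⟨U, u1, u2, u3, u4, u5⟩ := P.sub_c1 ho.connectedComponentIn (hb.subset hs)
    isPreconnected_connectedComponentIn (mem_connectedComponentIn hz) hw
  have h3 := L.lip3_of_lip4 (L.lip4_of_C1 u1)
  have hp := P.pr_good u4 u5 h
  have hx : Function.Injective (P.pr z w).x := fun i i' h =>
    Sum.inl_injective (hp.2.2.2 (by simpa using h))
  obtain ⟨c, hc⟩ := P144Q.U.all3 hJ h3 u2 _ hp
  have c0 := P.pos_free hJ h3 u2 hp rfl even_two hc
  have e : univ.image (P.pr z w).x = {z, w} := by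
    ext y
    simp [Fin.exists_fin_two, eq_comm]
  have h1 : Tendsto (P.FX J (disc U) {z, w}) (𝓝[>] 0) (𝓝 c) :=
    e ▸ Tendsto.congr' (P.corr_FX (disc U) hx rfl) hc
  refine ⟨c / 2, half_pos c0, ?_⟩
  filter_upwards [h1.eventually_const_lt (half_lt_self c0), self_mem_nhdsWithin,
    P.fl_mem h3.1 u1.1 (X := {z, w}) (by simp [u4, u5])] with a a1 ha a2
  have ha : 0 < a := ha
  refine a1.le.trans (mul_le_mul_of_nonneg_left (H436.fcor_mono hJ
    (P.disc_mono hb (u3.trans hs) ha) fun v hv => ?_) (by positivity))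
  obtain ⟨y, hy, rfl⟩ := mem_image.1 hv
  exact a2 y hy

theorem P.cls_low (hJ : 0 < J) (ho : IsOpen D) (hb : Bornology.IsBounded D) (X : Finset ℂ) :
    (∀ z ∈ X, z ∈ D) → (∀ z ∈ X, Even ((X : Set ℂ) ∩ connectedComponentIn D z).ncard) →
      ∃ g > 0, ∀ᶠ a in 𝓝[>] (0 : ℝ), g ≤ P.FX J (disc D) X a := by
  induction X using Finset.strongInduction with
  | H X ih =>
    intro hX he
    rcases X.eq_empty_or_nonempty with rfl | ⟨z, hz⟩
    · refine ⟨1, one_pos, Eventually.of_forall fun a => le_of_eq ?_⟩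
      unfold P.FX fcor gibbs P144.expect
      simp only [image_empty, prod_empty, one_mul, card_empty, pow_zero]
      exact (div_self (sum_pos (fun _ _ => Real.exp_pos _) ⟨∅, empty_mem_powerset _⟩).ne').symm
    have hf : ∀ S : Set ℂ, ((X : Set ℂ) ∩ S).Finite := fun S =>
      X.finite_toSet.subset Set.inter_subset_left
    have z1 : z ∈ (X : Set ℂ) ∩ connectedComponentIn D z :=
      ⟨hz, mem_connectedComponentIn (hX z hz)⟩
    have z2 : 1 < ((X : Set ℂ) ∩ connectedComponentIn D z).ncard := by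
      obtain ⟨k, hk⟩ := he z hz
      have := (Set.ncard_pos (hf _)).2 ⟨z, z1⟩
      omega
    obtain ⟨w, hw, hwz⟩ := Set.exists_ne_of_one_lt_ncard z2 z
    have hY : ({z, w} : Finset ℂ) ⊆ X := insert_subset hz (singleton_subset_iff.2 hw.1)
    obtain ⟨g, g0, hg⟩ := ih (X \ {z, w}) (sdiff_ssubset hY (insert_nonempty _ _))
      (fun y hy => hX y (mem_sdiff.1 hy).1) fun y hy => by
        have h1 := he y (mem_sdiff.1 hy).1
        by_cases h : z ∈ connectedComponentIn D y
        · have e := connectedComponentIn_eq h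
          have e' : ((X \ {z, w} : Finset ℂ) : Set ℂ) ∩ connectedComponentIn D y =
              ((X : Set ℂ) ∩ connectedComponentIn D y) \ {z, w} := by
            ext u
            simp only [coe_sdiff, coe_insert, coe_singleton, Set.mem_inter_iff, Set.mem_sdiff]
            tauto
          have hs : ({z, w} : Set ℂ) ⊆ (X : Set ℂ) ∩ connectedComponentIn D y := by
            rw [e]
            exact Set.insert_subset z1 (Set.singleton_subset_iff.2 hw)
          have h2 := Set.ncard_le_ncard hs (hf _)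
          rw [e', Set.ncard_sdiff hs, Nat.even_sub h2, Set.ncard_pair hwz.symm]
          exact iff_of_true h1 even_two
        · have h' : w ∉ connectedComponentIn D y := fun h' => h (by
            rw [connectedComponentIn_eq h', ← connectedComponentIn_eq hw.2]
            exact z1.2)
          have e' : ((X \ {z, w} : Finset ℂ) : Set ℂ) ∩ connectedComponentIn D y =
              (X : Set ℂ) ∩ connectedComponentIn D y := by
            ext u
            simp only [coe_sdiff, coe_insert, coe_singleton, Set.mem_inter_iff, Set.mem_sdiff,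
              Set.mem_insert_iff, Set.mem_singleton_iff]
            refine ⟨fun h => ⟨h.1.1, h.2⟩, fun h1 => ⟨⟨h1.1, ?_⟩, h1.2⟩⟩
            rintro (rfl | rfl)
            exacts [h h1.2, h' h1.2]
          rwa [e']
    obtain ⟨g', g0', hg'⟩ := P.two_low hJ ho hb (hX z hz) hw.2 hwz.symm
    refine ⟨g * g', mul_pos g0 g0', ?_⟩
    filter_upwards [hg, hg', P.FX_union hJ (disc D) (sdiff_disjoint (s := {z, w}) (t := X))]
      with a a1 a2 a3
    rw [sdiff_union_of_subset hY] at a3
    exact (mul_le_mul a1 a2 g0'.le (g0.le.trans a1)).trans a3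

/-- **Free boundary condition**: every component contains an even number of the spins. -/
theorem posF (hJ : 0 < J) (ho : IsOpen D) (hb : Bornology.IsBounded D) {p : Pts} (hp : Good D p)
    (hm : p.m = 0) (he : ∀ i, Even {k | p.x k ∈ connectedComponentIn D (p.x i)}.ncard) {c : ℝ}
    (hc : Lim (crit J D none) p c) : 0 < c := by
  have hx : Function.Injective p.x := fun i i' h =>
    Sum.inl_injective (hp.2.2.2 (by simpa using h))
  obtain ⟨g, g0, hg⟩ := P.cls_low hJ ho hb (univ.image p.x) (fun y hy => by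
    obtain ⟨i, -, rfl⟩ := mem_image.1 hy
    exact hp.2.1 i) fun y hy => by
      obtain ⟨i, -, rfl⟩ := mem_image.1 hy
      rw [coe_image, coe_univ, Set.image_univ, Set.inter_comm, ← Set.image_preimage_eq_inter_range,
        Set.ncard_image_of_injective _ hx]
      exact he i
  exact g0.trans_le (ge_of_tendsto (Tendsto.congr' (P.corr_FX (disc D) hx hm) hc) hg)

/-- **Free boundary condition**, connected domains. -/
theorem posT (hJ : 0 < J) (ho : IsOpen D) (hb : Bornology.IsBounded D) (hs : IsPreconnected D)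
    {p : Pts} (hp : Good D p) (hm : p.m = 0) (he : Even p.n) {c : ℝ}
    (hc : Lim (crit J D none) p c) : 0 < c := by
  refine posF hJ ho hb hp hm (fun i => ?_) hc
  rw [hs.connectedComponentIn (hp.2.1 i), Set.eq_univ_of_forall (s := {k | p.x k ∈ D}) hp.2.1,
    Set.ncard_univ, Nat.card_eq_fintype_card, Fintype.card_fin]
  exact he

/-- **Plus boundary condition.** -/
theorem posP (hJ : 0 < J) (ho : IsOpen D) (hb : Bornology.IsBounded D) {p : Pts} (hp : Good D p)
    (hm : p.m = 0) {c : ℝ} (hc : Lim (crit J D (some fun _ _ => true)) p c) : 0 < c := by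
  have hx : Function.Injective p.x := fun i i' h =>
    Sum.inl_injective (hp.2.2.2 (by simpa using h))
  obtain ⟨R, R0, hR⟩ := hb.subset_ball_lt 0 0
  have h4 := L.lip4_of_C1 (P.c1_ball 0 R0)
  have b1 : IsSimplyConnected (Metric.ball (0 : ℂ) R) := by
    have := (convex_ball (0 : ℂ) R).contractibleSpace ⟨0, Metric.mem_ball_self R0⟩
    exact SimplyConnectedSpace.ofContractible _
  have hp' : Good (Metric.ball 0 R) p :=
    ⟨hp.1, fun i => hR (hp.2.1 i), fun k => hR (hp.2.2.1 k), hp.2.2.2⟩
  obtain ⟨c', hc'⟩ := (sfinP J hJ _ h4 b1).1 _ hp'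
  refine (P.pos_plus hJ h4 b1 hp' hm hc').trans_le (le_of_tendsto_of_tendsto hc' hc ?_)
  filter_upwards [self_mem_nhdsWithin, P.inj_ev (univ.image p.x),
    P.fl_mem ho hb (X := univ.image p.x) fun y hy => by
      obtain ⟨i, -, rfl⟩ := mem_image.1 hy
      exact hp.2.1 i] with a ha a1 a2
  have ha : 0 < a := ha
  refine (P.corr_GP J (disc (Metric.ball 0 R)) hx hm ha).trans_le
    (le_of_le_of_eq (mul_le_mul_of_nonneg_left (F.sP_anti hJ
      (P.disc_mono Metric.isBounded_ball hR ha) ((univ.image p.x).nodup.map_on a1) fun v hv => ?_)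
      (by positivity)) (P.corr_GP J (disc D) hx hm ha).symm)
  obtain ⟨y, hy, rfl⟩ := Multiset.mem_map.1 hv
  exact a2 y hy

end Vale.Agent.P144X
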